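import Vale.Agent.Lib.P140.Basic

namespace Vale.Agent.Results.P140.ColdMaxwellianUnique

open MeasureTheory Vale.Agent.Lib.P140

/-- Uniqueness for global Maxwellian data of temperature at most one: every family of
phase-space densities obeying the global mass, momentum, energy and entropy relations of a
renormalized entropy solution with datum `M_{ρ,u,θ}`, `θ ≤ 1`, equals that Maxwellian
almost everywhere at every time. -/
theorem result (ρ θ : ℝ) (u : Vel) (hρ : 0 < ρ) (hθ : 0 < θ) (hθ1 : θ ≤ 1)
    (F : ℝ → Phase → ℝ) (hF : BalanceClass (gMaxw ρ u θ) F) (t : ℝ) (ht : 0 ≤ t) :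
    F t =ᵐ[volume] gMaxw ρ u θ :=
  cold_maxwellian_unique ρ θ u hρ hθ hθ1 F hF t ht

end Vale.Agent.Results.P140.ColdMaxwellianUnique
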