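import Vale.Agent.Lib.P140.Basic

namespace Vale.Agent.Results.P140.MaxwellianDichotomy

open MeasureTheory Vale.Agent.Lib.P140

/-- For a global Maxwellian datum `M_{ρ,u,θ}` of arbitrary temperature, a family obeying the
global mass, momentum, energy and entropy relations of a renormalized entropy solution can
differ from the datum at a time `t` only if `θ > 1` and kinetic energy has strictly been
lost at that time. -/
theorem result (ρ θ : ℝ) (u : Vel) (hρ : 0 < ρ) (hθ : 0 < θ)
    (F : ℝ → Phase → ℝ) (hF : BalanceClass (gMaxw ρ u θ) F) (t : ℝ) (ht : 0 ≤ t) :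
    F t =ᵐ[volume] gMaxw ρ u θ ∨
      (1 < θ ∧ ∫ z : Phase, ‖z.2‖ ^ 2 * F t z < ∫ z : Phase, ‖z.2‖ ^ 2 * gMaxw ρ u θ z) :=
  maxwellian_dichotomy ρ θ u hρ hθ F hF t ht

end Vale.Agent.Results.P140.MaxwellianDichotomy
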