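import Vale.Agent.Lib.P140.Basic

namespace Vale.Agent.Results.P140.NearUniqueness

open MeasureTheory Vale.Agent.Lib.P140

/-- Quantitative near-uniqueness: two families obeying the global mass, momentum, energy and
entropy relations of a renormalized entropy solution with the same datum `F0` differ in `L^1`
at every time by at most `sqrt (8 (m + ρ) H)`, where `m` is the mass of `F0` and `H` is the
entropy of `F0` relative to any global Maxwellian `M_{ρ,u,θ}` with `θ ≤ 1`. -/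
theorem result (ρ θ : ℝ) (u : Vel) (hρ : 0 < ρ) (hθ : 0 < θ) (hθ1 : θ ≤ 1)
    (F0 : Phase → ℝ) (hF0_nn : ∀ᵐ z ∂(volume : Measure Phase), 0 ≤ F0 z)
    (hF0 : Integrable F0) (hF0e : Integrable (fun z : Phase => ‖z.2‖ ^ 2 * F0 z))
    (hfin : relEnt F0 (gMaxw ρ u θ) ≠ ⊤)
    (F G : ℝ → Phase → ℝ) (hF : BalanceClass F0 F) (hG : BalanceClass F0 G)
    (t : ℝ) (ht : 0 ≤ t) :
    (∫ z, |F t z - G t z|) ^ 2
      ≤ 8 * ((∫ z, F0 z) + ρ) * (relEnt F0 (gMaxw ρ u θ)).toReal :=
  near_uniqueness ρ θ u hρ hθ hθ1 F0 hF0_nn hF0 hF0e hfin F G hF hG t ht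

end Vale.Agent.Results.P140.NearUniqueness
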