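import Vale.Agent.Lib.P140.Unified

namespace Vale.Agent.Results.P140.StabilityAllTemperatures

open MeasureTheory Vale.Agent.Lib.P140

/-- Stability and uniqueness statements relative to global Maxwellians `M_{ρ,u,θ}` of every
temperature, for families obeying the global mass, momentum, energy and entropy relations of a
renormalized entropy solution (the class `BalanceClass`).

(A) Two such families `F`, `G` with the same datum `F0` satisfy, at a time `t ≥ 0`,
`(∫ |F t - G t|)^2 ≤ 8 (∫ F0 + ρ) H`, where `H` is the entropy of `F0` relative to `M_{ρ,u,θ}`,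
provided `θ ≤ 1`, or provided both families have at time `t` the kinetic energy of the datum
(then every temperature `θ > 0` is allowed).

(B) For the datum `M_{ρ,u,θ}` itself, such a family can differ from the datum at a time `t`
only if `θ > 1` and kinetic energy has strictly been lost at that time. -/
theorem result :
    (∀ (ρ θ : ℝ) (u : Vel), 0 < ρ → 0 < θ →
      ∀ F0 : Phase → ℝ, (∀ᵐ z ∂(volume : Measure Phase), 0 ≤ F0 z) → Integrable F0 →
        Integrable (fun z : Phase => ‖z.2‖ ^ 2 * F0 z) → relEnt F0 (gMaxw ρ u θ) ≠ ⊤ →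
        ∀ F G : ℝ → Phase → ℝ, BalanceClass F0 F → BalanceClass F0 G → ∀ t : ℝ, 0 ≤ t →
          (θ ≤ 1 ∨
            ((∫ z : Phase, ‖z.2‖ ^ 2 * F t z = ∫ z : Phase, ‖z.2‖ ^ 2 * F0 z) ∧
              ∫ z : Phase, ‖z.2‖ ^ 2 * G t z = ∫ z : Phase, ‖z.2‖ ^ 2 * F0 z)) →
          (∫ z, |F t z - G t z|) ^ 2
            ≤ 8 * ((∫ z, F0 z) + ρ) * (relEnt F0 (gMaxw ρ u θ)).toReal) ∧
    (∀ (ρ θ : ℝ) (u : Vel), 0 < ρ → 0 < θ →
      ∀ F : ℝ → Phase → ℝ, BalanceClass (gMaxw ρ u θ) F → ∀ t : ℝ, 0 ≤ t →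
        (F t =ᵐ[volume] gMaxw ρ u θ ∨
          (1 < θ ∧
            ∫ z : Phase, ‖z.2‖ ^ 2 * F t z < ∫ z : Phase, ‖z.2‖ ^ 2 * gMaxw ρ u θ z))) :=
  ⟨fun ρ θ u hρ hθ F0 h1 h2 h3 hfin F G hF hG t ht hc =>
      near_uniqueness_any ρ θ u hρ hθ F0 h1 h2 h3 hfin F G hF hG t ht hc,
    fun ρ θ u hρ hθ F hF t ht => maxwellian_dichotomy ρ θ u hρ hθ F hF t ht⟩

end Vale.Agent.Results.P140.StabilityAllTemperatures
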